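import Vale.Agent.P219W.Rows

/-!
# P219W, row HA: the Hausdorff measure of the boundary is the area in charts
-/

open scoped Manifold ContDiff ENNReal NNReal RealInnerProductSpace Topology
open Set MeasureTheory Filter

set_option linter.all false

namespace Vale.Agent.P219W42

open Vale.Agent.P255 (RMetric)
open Vale.Agent.P219.Co (E SmoothDomain volDensity gradNorm pd)
open Vale.Agent.P219.Mfd
open Vale.Agent.P219.H381
open Vale.Agent.P219H381
open Vale.Agent.P219W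

theorem bilip {X Y : Type*} [EMetricSpace X] [MeasurableSpace X] [BorelSpace X] [EMetricSpace Y]
    [MeasurableSpace Y] [BorelSpace Y] {f : X → Y} {s : Set X} {K : ℝ≥0} (d : ℕ)
    (h1 : ∀ x y, edist x y ≤ edist (f x) (f y)) (h2 : LipschitzOnWith K f s) :
    (μHE[d] : Measure X) s ≤ (μHE[d] : Measure Y) (f '' s) ∧
      (μHE[d] : Measure Y) (f '' s) ≤ (K : ℝ≥0∞) ^ d * (μHE[d] : Measure X) s := by
  have a : AntilipschitzWith 1 f := fun x y => by simpa using h1 x y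
  have b := a.le_hausdorffMeasure_image (d := d) d.cast_nonneg s
  have c := h2.hausdorffMeasure_image_le (d := d) d.cast_nonneg
  simp only [Measure.euclideanHausdorffMeasure_def, Measure.smul_apply, ENNReal.smul_def,
    smul_eq_mul]
  rw [ENNReal.coe_one, ENNReal.one_rpow, one_mul] at b
  rw [ENNReal.rpow_natCast] at c
  refine ⟨mul_le_mul_right b _, ?_⟩
  rw [mul_left_comm]
  exact mul_le_mul_right c _

theorem le_local {M : Type*} [TopologicalSpace M] [SecondCountableTopology M] [MeasurableSpace M]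
    [OpensMeasurableSpace M] {μ ν : Measure M} {C : ℝ≥0∞}
    (h : ∀ p : M, ∃ W : Set M, IsOpen W ∧ p ∈ W ∧ ∀ s, MeasurableSet s → s ⊆ W → μ s ≤ C * ν s) :
    μ univ ≤ C * ν univ := by
  rcases isEmpty_or_nonempty M with h0 | h0
  · simp [eq_empty_of_isEmpty (univ : Set M)]
  choose W hW hp hs using h
  obtain ⟨c, hc, hcov⟩ := TopologicalSpace.countable_cover_nhds
    (fun p => (hW p).mem_nhds (hp p))
  obtain ⟨f, hf⟩ := countable_iff_exists_subset_range.1 hc
  have hU : ⋃ i, disjointed (fun i => W (f i)) i = univ := by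
    rw [iUnion_disjointed]
    refine eq_univ_of_univ_subset (hcov ▸ iUnion₂_subset fun x hx => ?_)
    obtain ⟨i, rfl⟩ := hf hx
    exact subset_iUnion (fun i => W (f i)) i
  have hm := MeasurableSet.disjointed fun i => (hW (f i)).measurableSet
  rw [← hU, measure_iUnion (disjoint_disjointed _) hm, measure_iUnion (disjoint_disjointed _) hm,
    ← ENNReal.tsum_mul_left]
  exact ENNReal.tsum_le_tsum fun i => hs _ _ (hm i) (disjointed_subset _ i)

theorem le_lim {a b : ℝ≥0∞} {k : ℕ} (h : ∀ c : ℝ≥0, 1 < c → a ≤ (c : ℝ≥0∞) ^ k * b) : a ≤ b := by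
  have h1 : Tendsto (fun c : ℝ≥0 => (c : ℝ≥0∞) ^ k) (𝓝[>] 1) (𝓝 (((1 : ℝ≥0) : ℝ≥0∞) ^ k)) :=
    (((ENNReal.continuous_pow k).comp ENNReal.continuous_coe).tendsto 1).mono_left
      nhdsWithin_le_nhds
  have h2 := ENNReal.Tendsto.mul_const (b := b) h1 (Or.inl (by simp))
  rw [ENNReal.coe_one, one_pow, one_mul] at h2
  exact ge_of_tendsto h2 (eventually_nhdsWithin_of_forall h)

variable {n : ℕ} {M : Type} [TopologicalSpace M] [T2Space M] [ChartedSpace (E n) M]
  [IsManifold 𝓘(ℝ, E n) ∞ M]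

/-- the weight is close to one near the centre of the chart -/
theorem weight {g : RMetric (E n) M} {p : M} {Ψ : E n ≃ₘ^∞⟮𝓘(ℝ, E n), 𝓘(ℝ, E n)⟯ M}
    (h : Nice g p Ψ) (D : SmoothDomain n) {c : ℝ} (hc : 1 < c) : ∀ᶠ x in 𝓝 (0 : E n), D.ρ x = 0 →
      volDensity (pl g Ψ) x * gradNorm (pl g Ψ) D.ρ x / √(∑ i, pd i D.ρ x ^ 2) ∈ Ioo c⁻¹ c := by
  by_cases h0 : D.ρ 0 = 0
  · have e : ∀ x, √(∑ i, pd i D.ρ x ^ 2) = ‖fderiv ℝ D.ρ x‖ := fun x =>
      (norm_fderiv_pd (D.smooth.differentiable (by simp) x)).symm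
    have hn : ‖fderiv ℝ D.ρ 0‖ ≠ 0 := norm_ne_zero_iff.2 (fderiv_ne h0)
    have c1 : ContinuousAt (fun x => volDensity (pl g Ψ) x * gradNorm (pl g Ψ) D.ρ x /
        ‖fderiv ℝ D.ρ x‖) 0 :=
      ((P219.Co.volDensity_cont _).mul (P219.Co.gradNorm_cont _
        (D.smooth.of_le (by exact_mod_cast le_top)))).continuousAt.div
        (D.smooth.continuous_fderiv (by simp)).norm.continuousAt hn
    have g0 : (pl g Ψ).g 0 = 1 := by
      ext i j
      show pb g Ψ 0 (bv i) (bv j) = _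
      rw [h.pb_zero, bv, bv, EuclideanSpace.inner_single_left, Matrix.one_apply]
      simp [eq_comm]
    have v : volDensity (pl g Ψ) 0 * gradNorm (pl g Ψ) D.ρ 0 / ‖fderiv ℝ D.ρ 0‖ = 1 := by
      rw [volDensity, gradNorm, g0, Matrix.det_one, Real.sqrt_one, one_mul, inv_one,
        Matrix.one_mulVec, div_eq_one_iff_eq hn, ← e]
      simp only [dotProduct, pow_two]
    simp only [e]
    refine (c1.eventually (isOpen_Ioo.mem_nhds ?_)).mono fun x hx _ => hx
    beta_reduce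
    rw [v]
    exact ⟨inv_lt_one_of_one_lt₀ hc, hc⟩
  · exact (D.smooth.continuous.continuousAt.eventually_ne h0).mono fun x hx h => (hx h).elim

variable [MeasurableSpace M] [BorelSpace M]

theorem loc {g : RMetric (E n) M} {p : M} {Ψ : E n ≃ₘ^∞⟮𝓘(ℝ, E n), 𝓘(ℝ, E n)⟯ M}
    (h : Nice g p Ψ) {Ω : Set M} {σ : Measure M} (hΩ : IsDomain (E n) Ω) (hσ : IsArea g Ω σ)
    {c : ℝ≥0} (hc : 1 < c) : ∃ W : Set M, IsOpen W ∧ p ∈ W ∧ ∀ s, MeasurableSet s → s ⊆ W →
      σ s ≤ (c : ℝ≥0∞) ^ 1 * (rmeas g (n - 1)).restrict (frontier Ω) s ∧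
      (rmeas g (n - 1)).restrict (frontier Ω) s ≤ (c : ℝ≥0∞) ^ (n - 1 + 1) * σ s := by
  have := secondCountable_M Ψ
  obtain ⟨D, hD⟩ := domain_pl Ψ hΩ
  obtain rfl : σ = areaM g Ψ D := isArea_unique g hΩ hσ (isArea_areaM g Ψ hD)
  have hc' : (1 : ℝ) < c := hc
  obtain ⟨δ, δ0, hδ⟩ := h.rdist_le c hc'
  obtain ⟨ε, ε0, hε⟩ := Metric.eventually_nhds_iff_ball.1
    ((weight h D hc').and (Metric.ball_mem_nhds 0 δ0))
  refine ⟨Ψ.symm ⁻¹' Metric.ball 0 ε, Metric.isOpen_ball.preimage Ψ.symm.continuous, ?_,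
    fun s hs hW => ?_⟩
  · show Ψ.symm p ∈ Metric.ball (0 : E n) ε
    rw [← h.zero, Ψ.symm_apply_apply]
    exact Metric.mem_ball_self ε0
  set A : Set (E n) := {x | D.ρ x = 0} ∩ Ψ ⁻¹' s
  have hA : ∀ x ∈ A, x ∈ Metric.ball (0 : E n) ε := fun x hx => by
    simpa using hW hx.2
  have hm : MeasurableSet A :=
    (isClosed_eq D.smooth.continuous continuous_const).measurableSet.inter (measurable_Psi Ψ hs)
  have e : s ∩ frontier Ω = Ψ '' A := by
    ext y
    constructor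
    · rintro ⟨h1, h2⟩
      refine ⟨Ψ.symm y, ⟨(frontier_pre Ψ hD).1 ?_, ?_⟩, Ψ.apply_symm_apply y⟩
      · rwa [Ψ.apply_symm_apply]
      · show Ψ (Ψ.symm y) ∈ s
        rwa [Ψ.apply_symm_apply]
    · rintro ⟨x, hx, rfl⟩
      exact ⟨hx.2, (frontier_pre Ψ hD).2 hx.1⟩
  have k : (μHE[n - 1] : Measure (E n)) A ≤ rmeas g (n - 1) (Ψ '' A) ∧
      rmeas g (n - 1) (Ψ '' A) ≤ (c : ℝ≥0∞) ^ (n - 1) * (μHE[n - 1] : Measure (E n)) A := by
    letI := riemSpace g
    refine bilip (n - 1) h.le_rdist fun x hx y hy => ?_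
    have := hδ x (hε x (hA x hx)).2 y (hε y (hA y hy)).2
    rwa [ENNReal.ofReal_coe_nnreal] at this
  rw [Measure.restrict_apply hs, e, areaM_apply g Ψ D hs, pow_one, pow_succ, mul_assoc]
  refine ⟨le_trans ?_ (mul_le_mul_right k.1 _), k.2.trans (mul_le_mul_right ?_ _)⟩
  · rw [← setLIntegral_const]
    refine setLIntegral_mono' hm fun x hx => ?_
    rw [← ENNReal.ofReal_coe_nnreal]
    exact ENNReal.ofReal_le_ofReal ((hε x (hA x hx)).1 hx.1).2.le
  · rw [← lintegral_const_mul' _ _ ENNReal.coe_ne_top, ← setLIntegral_one]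
    refine setLIntegral_mono' hm fun x hx => ?_
    rw [← ENNReal.ofReal_coe_nnreal, ← ENNReal.ofReal_mul c.coe_nonneg, ← ENNReal.ofReal_one]
    refine ENNReal.ofReal_le_ofReal ?_
    rw [← inv_mul_le_iff₀ (zero_lt_one.trans hc'), mul_one]
    exact ((hε x (hA x hx)).1 hx.1).1.le

theorem ha (g : RMetric (E n) M) : HA g := by
  intro hN Ω σ hΩ hσ
  rcases isEmpty_or_nonempty M with h0 | ⟨⟨p⟩⟩
  · simp [eq_empty_of_isEmpty (univ : Set M), eq_empty_of_isEmpty (frontier Ω)]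
  have := secondCountable_M (hN p).choose
  rw [← Measure.restrict_apply_univ (μ := rmeas g (n - 1)) (frontier Ω)]
  refine le_antisymm (le_lim (k := 1) fun c hc => le_local fun q => ?_)
    (le_lim (k := n - 1 + 1) fun c hc => le_local fun q => ?_)
  · obtain ⟨W, a, b, d⟩ := loc (hN q).choose_spec hΩ hσ hc
    exact ⟨W, a, b, fun s hs h => (d s hs h).1⟩
  · obtain ⟨W, a, b, d⟩ := loc (hN q).choose_spec hΩ hσ hc
    exact ⟨W, a, b, fun s hs h => (d s hs h).2⟩

end Vale.Agent.P219W42
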