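import Vale.Agent.P219W.Norm

/-!
# P219W, row ISO: the two notions of isometry onto a ball of the model agree
-/

open scoped Manifold ContDiff ENNReal RealInnerProductSpace Topology
open Set Filter Function

set_option linter.all false
set_option maxSynthPendingDepth 3

namespace Vale.Agent.P219W42

open Vale.Agent.P255 (RMetric)
open Vale.Agent.P219.Co (E sn)
open Vale.Agent.P219.Mfd
open Vale.Agent.P219.H381
open Vale.Agent.P219H381
open Vale.Agent.P219W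

variable {n : ℕ} {M N : Type} [TopologicalSpace M] [ChartedSpace (E n) M]
  [IsManifold 𝓘(ℝ, E n) ∞ M] [TopologicalSpace N] [ChartedSpace (E n) N]
  [IsManifold 𝓘(ℝ, E n) ∞ N]

theorem form_ext {A B : E n →L[ℝ] E n →L[ℝ] ℝ}
    (h : ∀ i j, A (EuclideanSpace.single i 1) (EuclideanSpace.single j 1) =
      B (EuclideanSpace.single i 1) (EuclideanSpace.single j 1)) : A = B := by
  have e : ∀ i, (EuclideanSpace.basisFun (Fin n) ℝ).toBasis i = EuclideanSpace.single i 1 :=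
    fun i => by simp
  refine ContinuousLinearMap.coe_injective
    ((EuclideanSpace.basisFun (Fin n) ℝ).toBasis.ext fun i => ?_)
  refine ContinuousLinearMap.coe_injective
    ((EuclideanSpace.basisFun (Fin n) ℝ).toBasis.ext fun j => ?_)
  rw [e, e]
  exact h i j

theorem pb_comp (g : RMetric (E n) M) (Θ : E n ≃ₘ^∞⟮𝓘(ℝ, E n), 𝓘(ℝ, E n)⟯ N) {f : N → M}
    {y : E n} (hf : MDifferentiableAt 𝓘(ℝ, E n) 𝓘(ℝ, E n) f (Θ y)) (v w : E n) :
    pb g (f ∘ Θ) y v w = g.inner (f (Θ y))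
      (mfderiv 𝓘(ℝ, E n) 𝓘(ℝ, E n) f (Θ y) (mfderiv 𝓘(ℝ, E n) 𝓘(ℝ, E n) Θ y v))
      (mfderiv 𝓘(ℝ, E n) 𝓘(ℝ, E n) f (Θ y) (mfderiv 𝓘(ℝ, E n) 𝓘(ℝ, E n) Θ y w)) := by
  have h3 := mfderiv_comp y hf ((Θ.contMDiff y).mdifferentiableAt (by simp))
  show g.inner (f (Θ y)) (mfderiv 𝓘(ℝ, E n) 𝓘(ℝ, E n) (f ∘ Θ) y v)
    (mfderiv 𝓘(ℝ, E n) 𝓘(ℝ, E n) (f ∘ Θ) y w) = _
  rw [h3]
  rfl

/-- the inverse of an injective immersion of an open set is smooth -/
theorem smooth_inv (g : RMetric (E n) M) (Ψ : E n ≃ₘ^∞⟮𝓘(ℝ, E n), 𝓘(ℝ, E n)⟯ M) {φ : E n → M}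
    {B : Set (E n)} (hB : IsOpen B) (hφ : SmoothMapOn (E n) φ B) (hi : InjOn φ B) {y : E n}
    (hy : y ∈ B) (hp : ∀ v, pb g φ y v v = 0 → v = 0) :
    ContMDiffAt 𝓘(ℝ, E n) 𝓘(ℝ, E n) ∞ (invFunOn φ B) (φ y) := by
  set F : E n → E n := fun z => Ψ.symm (φ z)
  have hF : ContDiffAt ℝ ∞ F y :=
    ((Ψ.symm.contMDiff _).comp y (ContMDiffOn.contMDiffAt hφ (hB.mem_nhds hy))).contDiffAt
  have e : (fun z => Ψ (F z)) = φ := funext fun z => Ψ.apply_symm_apply _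
  have hd := hF.differentiableAt (by simp)
  have inj : Injective ((fderiv ℝ F y : E n →L[ℝ] E n) : E n →ₗ[ℝ] E n) := by
    refine (injective_iff_map_eq_zero _).2 fun v hv => hp v ?_
    have h1 : pb g (fun z => Ψ (F z)) y v v = _ := inner_comp g Ψ hd v v
    rw [e] at h1
    rw [h1, show fderiv ℝ F y v = 0 from hv, map_zero]
  have hL : HasFDerivAt F ((LinearEquiv.ofInjectiveEndo _ inj).toContinuousLinearEquiv :
      E n →L[ℝ] E n) y := hd.hasFDerivAt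
  have hG := hF.to_localInverse hL (by simp)
  have h0 := hF.localInverse_apply_image hL (by simp)
  have h1 := (hF.hasStrictFDerivAt' hL (by simp)).eventually_right_inverse
  have h2 := hG.continuousAt.eventually (h0.symm ▸ hB.mem_nhds hy)
  refine (hG.contMDiffAt.comp (φ y) (Ψ.symm.contMDiff _)).congr_of_eventuallyEq ?_
  refine ((Ψ.symm.continuous.tendsto (φ y)).eventually (h1.and h2)).mono fun q hq => ?_
  have h3 : φ (hF.localInverse hL (by simp) (Ψ.symm q)) = q := Ψ.symm.injective hq.1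
  exact (congrArg (invFunOn φ B) h3.symm).trans (hi.leftInvOn_invFunOn hq.2)

theorem iso_iff (g : RMetric (E n) M) (h : RMetric (E n) N)
    (Ψ : E n ≃ₘ^∞⟮𝓘(ℝ, E n), 𝓘(ℝ, E n)⟯ M) (Θ : E n ≃ₘ^∞⟮𝓘(ℝ, E n), 𝓘(ℝ, E n)⟯ N) {k : ℝ}
    (hk : k ≤ 0) (hΘ : ∀ y v w : E n,
      pb h Θ y v w = ⟪v, w⟫ + k * ⟪y, v⟫ * ⟪y, w⟫ / (1 - k * ‖y‖ ^ 2)) (Ω : Set M) (r : ℝ) :
    IsometricToBall g k Ω r ↔
      Isometric h (Θ '' {y | ∑ i, y i ^ 2 < sn √(-k) r ^ 2}) g Ω := by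
  set B : Set (E n) := {y | ∑ i, y i ^ 2 < sn √(-k) r ^ 2} with hBd
  have hB : IsOpen B := isOpen_lt (by fun_prop) continuous_const
  have hB' : IsOpen (Θ '' B) := Θ.toHomeomorph.isOpenMap B hB
  have hT : ∀ (y : E n) i j, pb h Θ y (EuclideanSpace.single i 1) (EuclideanSpace.single j 1) =
      (if i = j then 1 else 0) + k * y i * y j / (1 - k * ∑ m, y m ^ 2) := by
    intro y i j
    rw [hΘ, EuclideanSpace.real_norm_sq_eq, EuclideanSpace.inner_single_left,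
      EuclideanSpace.inner_single_right, EuclideanSpace.inner_single_right]
    simp [eq_comm]
  constructor
  · rintro ⟨φ, _, rfl, h1, h2, rfl, h4⟩
    have h5 : ∀ y ∈ B, pb g φ y = pb h Θ y := fun y hy =>
      form_ext fun i j => (h4 y hy i j).trans (hT y i j).symm
    have m : MapsTo Θ.symm (Θ '' B) B := by
      rintro _ ⟨y, hy, rfl⟩
      rwa [Θ.symm_apply_apply]
    have s : ContMDiffOn 𝓘(ℝ, E n) 𝓘(ℝ, E n) ∞ (φ ∘ Θ.symm) (Θ '' B) :=
      ContMDiffOn.comp h1 Θ.symm.contMDiff.contMDiffOn m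
    refine ⟨φ ∘ Θ.symm, Θ ∘ invFunOn φ B, s, ?_, (mapsTo_image φ B).comp m, ?_, ⟨?_, ?_⟩, ?_⟩
    · rintro _ ⟨y, hy, rfl⟩
      refine ((Θ.contMDiff _).comp _ (smooth_inv g Ψ hB h1 h2 hy fun v hv => ?_)).contMDiffWithinAt
      by_contra h0
      rw [h5 y hy] at hv
      exact ((isMetricOn_pb Θ h).pos y (mem_univ _) v h0).ne' hv
    · exact fun q hq => mem_image_of_mem _ (invFunOn_mem hq)
    · intro q hq
      show Θ (invFunOn φ B (φ (Θ.symm q))) = q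
      rw [h2.leftInvOn_invFunOn (m hq), Θ.apply_symm_apply]
    · intro q hq
      show φ (Θ.symm (Θ (invFunOn φ B q))) = q
      rw [Θ.symm_apply_apply, invFunOn_eq hq]
    · rintro _ ⟨y, hy, rfl⟩ v w
      obtain ⟨v, rfl⟩ := (Θ.mfderivToContinuousLinearEquiv (by simp) y).surjective v
      obtain ⟨w, rfl⟩ := (Θ.mfderivToContinuousLinearEquiv (by simp) y).surjective w
      have e : (φ ∘ Θ.symm) ∘ Θ = φ := funext fun z => congrArg φ (Θ.symm_apply_apply z)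
      have a := pb_comp g Θ ((s.contMDiffAt (hB'.mem_nhds (mem_image_of_mem _ hy))).mdifferentiableAt
        (by simp)) v w
      rw [e, h5 y hy] at a
      exact a.symm
  · rintro ⟨φ, ψ, h1, -, h2, h3, h4, h5⟩
    refine ⟨φ ∘ Θ, B, rfl, ContMDiffOn.comp h1 Θ.contMDiff.contMDiffOn (mapsTo_image Θ B),
      h4.1.injOn.comp Θ.injective.injOn (mapsTo_image Θ B), ?_, fun y hy i j => ?_⟩
    · rw [image_comp]
      exact (h4.bijOn h2 h3).image_eq
    · have hy' := mem_image_of_mem Θ hy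
      refine (pb_comp g Θ ((h1.contMDiffAt (hB'.mem_nhds hy')).mdifferentiableAt
        (by simp)) _ _).trans ((h5 _ hy' _ _).trans (hT y i j))

end Vale.Agent.P219W42
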