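import Vale.Agent.P219W.Rows2

/-!
# P219W, row TWO1: local defining functions after filling in the two-sided boundary
-/

open scoped Manifold ContDiff Topology
open Set Filter Function

set_option linter.all false

namespace Vale.Agent.P219W42

open Vale.Agent.P219.Co (E)
open Vale.Agent.P219.Mfd
open Vale.Agent.P219W

theorem side {X : Type*} [TopologicalSpace X] {Ω W : Set X} {f : X → ℝ} (hΩ : IsOpen Ω)
    (hc : ∀ x ∈ W, f x = 0 → x ∈ closure {x ∈ W | 0 < f x})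
    (h1 : {x ∈ W | 0 < f x} ⊆ (closure Ω)ᶜ) (h2 : {x ∈ W | f x < 0} ⊆ Ω) :
    interior (closure Ω) ∩ W = {x ∈ W | f x < 0} := by
  ext x
  refine ⟨fun ⟨a, b⟩ => ⟨b, ?_⟩, fun h => ⟨hΩ.subset_interior_closure (h2 h), h.1⟩⟩
  rcases lt_trichotomy (f x) 0 with h | h | h
  · exact h
  · obtain ⟨y, c, d⟩ := mem_closure_iff.1 (hc x b h) _ isOpen_interior a
    exact (h1 d (interior_subset c)).elim
  · exact (h1 ⟨b, h⟩ (interior_subset a)).elim

theorem half {V : Type*} [NormedAddCommGroup V] [NormedSpace ℝ V] {L : V →L[ℝ] ℝ} {v y : V}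
    (hv : L v = 1) {s : ℝ} (hs : s ≠ 0) (hy : L y = 0) : y ∈ closure {z | 0 < s * L z} := by
  have t : Tendsto (fun t : ℝ => y + (t * s) • v) (𝓝[>] 0) (𝓝 (y + ((0 : ℝ) * s) • v)) :=
    (Continuous.tendsto (by fun_prop) 0).mono_left nhdsWithin_le_nhds
  rw [zero_mul, zero_smul, add_zero] at t
  refine mem_closure_of_tendsto t (eventually_nhdsWithin_of_forall fun t ht => ?_)
  show 0 < s * L _
  rw [map_add, hy, map_smul, hv, zero_add, smul_eq_mul, mul_one, mul_left_comm]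
  exact mul_pos ht (mul_self_pos.2 hs)

variable {n : ℕ} {M : Type} [TopologicalSpace M] [ChartedSpace (E n) M]
  [IsManifold 𝓘(ℝ, E n) ∞ M]

/-- a chart in which a regular function is linear -/
theorem lin {U : Set M} {f : M → ℝ} {p : M} (hU : IsOpen U) (hp : p ∈ U)
    (hf : ContMDiffOn 𝓘(ℝ, E n) 𝓘(ℝ, ℝ) ∞ f U) (hd : mfderiv 𝓘(ℝ, E n) 𝓘(ℝ, ℝ) f p ≠ 0) :
    (∀ᶠ q in 𝓝 p, mfderiv 𝓘(ℝ, E n) 𝓘(ℝ, ℝ) f q ≠ 0) ∧
      ∃ (e : OpenPartialHomeomorph M (E n)) (L : E n →L[ℝ] ℝ) (v : E n), p ∈ e.source ∧ L v = 1 ∧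
        ∀ x ∈ e.source, L (e x) = f x := by
  set c := chartAt (E n) p with hc
  have pc : p ∈ c.source := mem_chart_source _ p
  have cs : ∀ q ∈ c.source, ContMDiffAt 𝓘(ℝ, E n) 𝓘(ℝ, E n) ∞ c.symm (c q) := fun q hq =>
    (contMDiffOn_chart_symm (I := 𝓘(ℝ, E n)) (n := ∞) (x := p)).contMDiffAt
      (c.open_target.mem_nhds (c.map_source hq))
  have fs : ∀ q ∈ c.source, q ∈ U → ContMDiffAt 𝓘(ℝ, E n) 𝓘(ℝ, ℝ) ∞ f (c.symm (c q)) :=
    fun q hq h => (c.left_inv hq).symm ▸ hf.contMDiffAt (hU.mem_nhds h)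
  have hF : ContDiffAt ℝ ∞ (f ∘ c.symm) (c p) := ((fs p pc hp).comp _ (cs p pc)).contDiffAt
  set L : E n →L[ℝ] ℝ := fderiv ℝ (f ∘ c.symm) (c p) with hL
  have L0 : L ≠ 0 := by
    intro h0
    apply hd
    have e : f =ᶠ[𝓝 p] (f ∘ c.symm) ∘ c :=
      (c.eventually_left_inverse pc).mono fun x hx => (congrArg f hx).symm
    rw [e.mfderiv_eq, mfderiv_comp p (hF.differentiableAt (by simp)).mdifferentiableAt
      (mdifferentiableAt_atlas (chart_mem_atlas _ p) pc), mfderiv_eq_fderiv, ← hL, h0]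
    rfl
  refine ⟨?_, ?_⟩
  · have a := (c.continuousAt pc).eventually
      ((hF.continuousAt_fderiv (by simp)).eventually_ne L0)
    filter_upwards [a, c.open_source.mem_nhds pc, hU.mem_nhds hp] with q h1 h2 h3 h4
    apply h1
    rw [← mfderiv_eq_fderiv, mfderiv_comp _ ((fs q h2 h3).mdifferentiableAt (by simp))
      ((cs q h2).mdifferentiableAt (by simp))]
    have e : mfderiv 𝓘(ℝ, E n) 𝓘(ℝ, ℝ) f (c.symm (c q)) = 0 := by
      rw [c.left_inv h2]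
      exact h4
    rw [e]
    rfl
  obtain ⟨w, hw⟩ := DFunLike.ne_iff.1 L0
  have hv : L ((L w)⁻¹ • w) = 1 := by
    rw [map_smul, smul_eq_mul]
    exact inv_mul_cancel₀ hw
  set v := (L w)⁻¹ • w
  have s := (hasStrictFDerivAt_id (c p)).add
    (((hF.hasStrictFDerivAt (by simp)).sub L.hasStrictFDerivAt).smul_const v)
  rw [← hL, sub_self] at s
  have s' : HasStrictFDerivAt (fun x => x + ((f ∘ c.symm) x - L x) • v)
      (ContinuousLinearEquiv.refl ℝ (E n) : E n →L[ℝ] E n) (c p) := by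
    refine s.congr_fderiv ?_
    ext x
    simp
  refine ⟨c.trans (s'.toOpenPartialHomeomorph _), L, v,
    ⟨pc, s'.mem_toOpenPartialHomeomorph_source⟩, hv, fun x hx => ?_⟩
  show L (c x + (f (c.symm (c x)) - L (c x)) • v) = f x
  rw [map_add, map_smul, hv, c.left_inv hx.1, smul_eq_mul, mul_one, add_sub_cancel]

theorem nf {U : Set M} {f : M → ℝ} {p : M} (hU : IsOpen U) (hp : p ∈ U)
    (hf : ContMDiffOn 𝓘(ℝ, E n) 𝓘(ℝ, ℝ) ∞ f U) (hd : mfderiv 𝓘(ℝ, E n) 𝓘(ℝ, ℝ) f p ≠ 0) :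
    ∃ W, IsOpen W ∧ p ∈ W ∧ W ⊆ U ∧ (∀ q ∈ W, mfderiv 𝓘(ℝ, E n) 𝓘(ℝ, ℝ) f q ≠ 0) ∧
      ∀ s : ℝ, s ≠ 0 → IsPreconnected {x ∈ W | 0 < s * f x} ∧
        ∀ x ∈ W, f x = 0 → x ∈ closure {x ∈ W | 0 < s * f x} := by
  obtain ⟨h1, e, L, v, pe, hv, he⟩ := lin hU hp hf hd
  have a : ∀ᶠ y in 𝓝 (e p), mfderiv 𝓘(ℝ, E n) 𝓘(ℝ, ℝ) f (e.symm y) ≠ 0 ∧ e.symm y ∈ U :=
    (e.tendsto_symm pe).eventually (h1.and (hU.mem_nhds hp))
  obtain ⟨ε, ε0, hε⟩ := Metric.eventually_nhds_iff_ball.1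
    (a.and (e.open_target.mem_nhds (e.map_source pe)))
  have b : ∀ y ∈ Metric.ball (e p) ε, f (e.symm y) = L y := fun y hy => by
    rw [← he _ (e.map_target (hε y hy).2), e.right_inv (hε y hy).2]
  refine ⟨e.symm '' Metric.ball (e p) ε, e.isOpen_image_symm_of_subset_target Metric.isOpen_ball
    fun y hy => (hε y hy).2, ⟨e p, Metric.mem_ball_self ε0, e.left_inv pe⟩, ?_, ?_, fun s hs => ?_⟩
  · rintro _ ⟨y, hy, rfl⟩
    exact (hε y hy).1.2
  · rintro _ ⟨y, hy, rfl⟩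
    exact (hε y hy).1.1
  have i : {x ∈ e.symm '' Metric.ball (e p) ε | 0 < s * f x} =
      e.symm '' (Metric.ball (e p) ε ∩ {z | 0 < s * L z}) := by
    ext x
    constructor
    · rintro ⟨⟨y, hy, rfl⟩, h⟩
      exact ⟨y, ⟨hy, show 0 < s * L y from b y hy ▸ h⟩, rfl⟩
    · rintro ⟨y, ⟨hy, h⟩, rfl⟩
      exact ⟨⟨y, hy, rfl⟩, (b y hy).symm ▸ h⟩
  rw [i]
  refine ⟨((convex_ball _ _).inter (convex_halfSpace_gt (s • L : E n →L[ℝ] ℝ).isLinear
    0)).isPreconnected.image _ (e.continuousOn_symm.mono fun y hy => (hε y hy.1).2), ?_⟩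
  rintro _ ⟨y, hy, rfl⟩ h
  exact mem_closure_image (e.continuousAt_symm (hε y hy).2)
    (Metric.isOpen_ball.inter_closure ⟨hy, half hv hs (b y hy ▸ h)⟩)

theorem two1 [T2Space M] : TWO1 n M := by
  intro Ω hΩ hS p hp
  obtain ⟨U, f, hU, pU, hf, h0, hd⟩ :=
    hS p (frontier_closure_subset (frontier_interior_subset hp))
  obtain ⟨W, hW, pW, WU, hr, hs⟩ := nf hU pU hf hd
  have z : ∀ x ∈ W, x ∈ frontier Ω ↔ f x = 0 := fun x hx =>
    ⟨fun h => (h0.subset ⟨h, WU hx⟩).2, fun h => (h0.symm.subset ⟨WU hx, h⟩).1⟩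
  have d : ∀ s : ℝ, s ≠ 0 → {x ∈ W | 0 < s * f x} ⊆ Ω ∨ {x ∈ W | 0 < s * f x} ⊆ (closure Ω)ᶜ :=
    fun s h => (hs s h).1.subset_or_subset hΩ isClosed_closure.isOpen_compl
      (disjoint_compl_right.mono_left subset_closure) fun x hx => by
        by_contra hn
        have : x ∈ frontier Ω := by
          rw [hΩ.frontier_eq]
          exact ⟨not_not.1 fun h => hn (Or.inr h), fun h => hn (Or.inl h)⟩
        have h2 := hx.2
        rw [(z x hx.1).1 this, mul_zero] at h2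
        exact h2.false
  have c1 := (hs 1 one_ne_zero).2
  have c2 := (hs (-1) (by simp)).2
  have d1 := d 1 one_ne_zero
  have d2 := d (-1) (by simp)
  simp only [one_mul, neg_mul] at c1 c2 d1 d2
  rcases d1 with a | a <;> rcases d2 with b | b
  · have : W ⊆ closure Ω := fun x hx => by
      rcases lt_trichotomy (f x) 0 with h | h | h
      · exact subset_closure (b ⟨hx, neg_pos.2 h⟩)
      · exact frontier_subset_closure ((z x hx).2 h)
      · exact subset_closure (a ⟨hx, h⟩)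
    rw [isOpen_interior.frontier_eq] at hp
    exact (hp.2 (interior_maximal this hW pW)).elim
  · refine ⟨W, fun x => -f x, pW, hW, (hf.mono WU).neg, side hΩ
      (fun x hx h => c2 x hx (neg_eq_zero.1 h)) b fun x hx => a ⟨hx.1, neg_lt_zero.1 hx.2⟩,
      fun q hq h => hr q hq.2 ?_⟩
    have e := mfderiv_neg (I := 𝓘(ℝ, E n)) (f := f) (x := q)
    exact neg_eq_zero.1 (e.symm.trans h)
  · exact ⟨W, f, pW, hW, hf.mono WU, side hΩ c1 a fun x hx => b ⟨hx.1, neg_pos.2 hx.2⟩,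
      fun q hq => hr q hq.2⟩
  · obtain ⟨x, hx, hx'⟩ := mem_closure_iff.1 (frontier_subset_closure
      (frontier_closure_subset (frontier_interior_subset hp))) W hW pW
    rcases lt_trichotomy (f x) 0 with h | h | h
    · exact (b ⟨hx, neg_pos.2 h⟩ (subset_closure hx')).elim
    · exact ((hΩ.frontier_eq ▸ (z x hx).2 h).2 hx').elim
    · exact (a ⟨hx, h⟩ (subset_closure hx')).elim

end Vale.Agent.P219W42
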